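import Vale.Agent.P142b.C10.DataTab
import Vale.Agent.P142b.C10.DataFree
import Vale.Agent.P142b.C10.DataBlocks
import Vale.Agent.P142b.C10.DataIdx
import Vale.Agent.P142b.C10.DataRes

/-! Generated data of the certificate. -/

set_option maxRecDepth 100000

namespace Vale.Agent.P142b.C10

/-- The certificate. -/
def cert : Cert where
  K := 10
  kn := 123
  kd := 20
  scale := 4722366482869645213696
  phi := phi
  psi := psi

/-- The checkable data of the certificate. -/
def data : Data where
  C := cert
  L := 256
  tabs := tabs
  main := mainBlocks
  phib := phibBlocks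
  idx0 := idxConst
  idxF := idxF
  idxS := idxS
  idxB := idxBM
  res := resMain
  idxPhi := idxPhi
  idxPhiB := idxBP
  resPhi := resPhi

end Vale.Agent.P142b.C10
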