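import Vale.Agent.P142b.C10.ValuePhi9
import Vale.Agent.P142b.C10.ValuePhi10
import Vale.Agent.P142b.C10.ValuePhi11

/-! Generated data of the certificate. -/

set_option maxRecDepth 100000

namespace Vale.Agent.P142b.C10

theorem valueOkAll : ∀ s < data.res.length, data.valueOk s = true := by
  intro s hs
  rw [show data.res.length = 16 from rfl] at hs
  interval_cases s
  · exact valueOk0
  · exact valueOk1
  · exact valueOk2
  · exact valueOk3
  · exact valueOk4
  · exact valueOk5
  · exact valueOk6
  · exact valueOk7
  · exact valueOk8
  · exact valueOk9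
  · exact valueOk10
  · exact valueOk11
  · exact valueOk12
  · exact valueOk13
  · exact valueOk14
  · exact valueOk15

theorem valuePhiOkAll : ∀ s < data.resPhi.length, data.valuePhiOk s = true := by
  intro s hs
  rw [show data.resPhi.length = 12 from rfl] at hs
  interval_cases s
  · exact valuePhiOk0
  · exact valuePhiOk1
  · exact valuePhiOk2
  · exact valuePhiOk3
  · exact valuePhiOk4
  · exact valuePhiOk5
  · exact valuePhiOk6
  · exact valuePhiOk7
  · exact valuePhiOk8
  · exact valuePhiOk9
  · exact valuePhiOk10
  · exact valuePhiOk11

theorem cert_good : cert.Good :=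
  Data.good_of_checks (D := data) shapeOk indexOk indexFOk indexSOk indexBOk indexPhiBOk valueOkAll valuePhiOkAll

end Vale.Agent.P142b.C10
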