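import Vale.Agent.P142b.C10.Data

/-! Generated data of the certificate. -/

set_option maxRecDepth 100000

namespace Vale.Agent.P142b.C10

theorem indexOk : data.indexOk = true := by decide +kernel

theorem indexBOk : data.indexBOk = true := by decide +kernel

theorem indexPhiBOk : data.indexPhiBOk = true := by decide +kernel


end Vale.Agent.P142b.C10
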