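import Vale.Agent.P142b.C10.Value9

/-! Generated data of the certificate. -/

set_option maxRecDepth 100000

namespace Vale.Agent.P142b.C10

theorem valueOk12 : data.valueOk 12 = true := by decide +kernel

end Vale.Agent.P142b.C10
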